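import Mathlib.Computability.TuringMachine.Computable
import Mathlib.Tactic.Ring
import Mathlib.Data.Fintype.Option
import Mathlib.Data.Fintype.Sum
import Mathlib.Data.Fintype.Prod
import Mathlib.Data.Finite.Prod

/-!
Change of the input and output alphabets of a polynomial time stack machine.
-/

namespace Vale.Agent.N333C

open Turing Function

section Machine

variable {K : Type} [DecidableEq K] {Γ : K → Type} {Λ σ A B : Type}

/-- Stack alphabets of the new machine. -/
abbrev G (Γ : K → Type) (A B : Type) : K ⊕ Bool ⊕ Bool → Type
  | .inl k => Γ k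
  | .inr (.inl _) => A
  | .inr (.inr _) => B

/-- Labels of the new machine. -/
abbrev L (Λ A B : Type) := Λ ⊕ (Bool × Option A) ⊕ (Bool × Option B)

/-- States of the new machine. -/
abbrev V (σ A B : Type) := σ × Option A × Option B × Option Bool

/-- Stacks of the new machine. -/
def stk (S : ∀ k, List (Γ k)) (x t : List A) (u z : List B) : ∀ k, List (G Γ A B k)
  | .inl k => S k
  | .inr (.inl false) => x
  | .inr (.inl true) => t
  | .inr (.inr false) => u
  | .inr (.inr true) => z

variable {S : ∀ k, List (Γ k)} {x t : List A} {u z : List B}

theorem up0 (k : K) (w : List (Γ k)) :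
    update (stk S x t u z) (.inl k) w = stk (update S k w) x t u z := by
  funext j
  rcases j with j | (_ | _) | (_ | _)
  · by_cases h : j = k
    · subst h
      exact (update_self _ _ _).trans (update_self j w S).symm
    · have e : S j = update (β := fun k => List (Γ k)) S k w j := (update_of_ne h _ _).symm
      exact (update_of_ne (by simpa using h) _ _).trans e
  all_goals exact update_of_ne (by simp) _ _

theorem up1 (w : List A) : update (stk S x t u z) (.inr (.inl false)) w = stk S w t u z := by
  funext j
  rcases j with j | (_ | _) | (_ | _)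
  on_goal 2 => exact update_self _ _ _
  all_goals exact update_of_ne (by simp) _ _

theorem up2 (w : List A) : update (stk S x t u z) (.inr (.inl true)) w = stk S x w u z := by
  funext j
  rcases j with j | (_ | _) | (_ | _)
  on_goal 3 => exact update_self _ _ _
  all_goals exact update_of_ne (by simp) _ _

theorem up3 (w : List B) : update (stk S x t u z) (.inr (.inr false)) w = stk S x t w z := by
  funext j
  rcases j with j | (_ | _) | (_ | _)
  on_goal 4 => exact update_self _ _ _
  all_goals exact update_of_ne (by simp) _ _

theorem up4 (w : List B) : update (stk S x t u z) (.inr (.inr true)) w = stk S x t u w := by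
  funext j
  rcases j with j | (_ | _) | (_ | _)
  on_goal 5 => exact update_self _ _ _
  all_goals exact update_of_ne (by simp) _ _

/-- Push a fixed word. -/
def pushW {K' : Type} {Γ' : K' → Type} {Λ' σ' : Type} (k : K') :
    List (Γ' k) → TM2.Stmt Γ' Λ' σ' → TM2.Stmt Γ' Λ' σ'
  | [], q => q
  | a :: w, q => pushW k w (.push k (fun _ => a) q)

theorem stepAux_pushW {K' : Type} [DecidableEq K'] {Γ' : K' → Type} {Λ' σ' : Type} (k : K')
    (w : List (Γ' k)) (q : TM2.Stmt Γ' Λ' σ') (v : σ') (S : ∀ k, List (Γ' k)) :
    TM2.stepAux (pushW k w q) v S = TM2.stepAux q v (update S k (w ++ S k)) := by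
  induction w generalizing q with
  | nil => simp [pushW]
  | cons a w ih => rw [pushW, ih]; simp [TM2.stepAux]

variable (o₀ : Option B)

/-- Translation of the statements. -/
def tr : TM2.Stmt Γ Λ σ → TM2.Stmt (G Γ A B) (L Λ A B) (V σ A B)
  | .push k f q => .push (.inl k) (fun v => f v.1) (tr q)
  | .peek k f q => .peek (.inl k) (fun v o => (f v.1 o, v.2)) (tr q)
  | .pop k f q => .pop (.inl k) (fun v o => (f v.1 o, v.2)) (tr q)
  | .load f q => .load (fun v => (f v.1, v.2)) (tr q)
  | .branch f p q => .branch (fun v => f v.1) (tr p) (tr q)
  | .goto f => .goto fun v => .inl (f v.1)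
  | .halt => .goto fun _ => .inr (.inr (false, o₀))

/-- Translation of the configurations. -/
def lift (c : TM2.Cfg Γ Λ σ) : TM2.Cfg (G Γ A B) (L Λ A B) (V σ A B) :=
  ⟨some (match c.l with | some l => .inl l | none => .inr (.inr (false, o₀))),
    (c.var, none, none, none), stk c.stk [] [] [] []⟩

theorem stepAux_tr (q : TM2.Stmt Γ Λ σ) (v : σ) (S : ∀ k, List (Γ k)) :
    TM2.stepAux (tr (A := A) o₀ q) (v, none, none, none) (stk S [] [] [] []) =
      lift o₀ (TM2.stepAux q v S) := by
  induction q generalizing v S with
  | push k f q ih => exact (congrArg _ (up0 k _)).trans (ih _ _)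
  | peek k f q ih => exact ih _ _
  | pop k f q ih => exact (congrArg _ (up0 k _)).trans (ih _ _)
  | load f q ih => exact ih _ _
  | branch f p q ih1 ih2 =>
    simp only [tr, TM2.stepAux]
    cases f v
    · exact ih2 _ _
    · exact ih1 _ _
  | goto f => rfl
  | halt => rfl

variable (m : Λ → TM2.Stmt Γ Λ σ) (main : Λ) {k₀ k₁ : K} (ca : A → List (Γ k₀))
  (rd : Γ k₁ → Bool) (nxt : Option B → Option B)

/-- The program of the new machine. -/
def prog : L Λ A B → TM2.Stmt (G Γ A B) (L Λ A B) (V σ A B)
  | .inl l => tr o₀ (m l)
  | .inr (.inl (false, o)) => pushW (.inr (.inl true)) o.toList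
      (.pop (.inr (.inl false)) (fun v a => (v.1, a, v.2.2))
        (.goto fun v => .inr (.inl (v.2.1.isNone, v.2.1))))
  | .inr (.inl (true, o)) => pushW (.inl k₀) (o.toList.flatMap ca)
      (.pop (.inr (.inl true)) (fun v a => (v.1, a, v.2.2))
        (.goto fun v => bif v.2.1.isNone then .inl main else .inr (.inl (true, v.2.1))))
  | .inr (.inr (false, o)) =>
      .pop (.inl k₁) (fun v a => (v.1, v.2.1, v.2.2.1, Option.map rd a))
        (.branch (fun v => v.2.2.2 == some false)
          (pushW (.inr (.inr false)) o.toList (.goto fun _ => .inr (.inr (false, o₀))))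
          (.goto fun v => bif v.2.2.2.isNone then .inr (.inr (true, none))
            else .inr (.inr (false, nxt o))))
  | .inr (.inr (true, o)) => pushW (.inr (.inr true)) o.toList
      (.pop (.inr (.inr false)) (fun v a => (v.1, v.2.1, a, v.2.2.2))
        (.branch (fun v => v.2.2.1.isNone) .halt (.goto fun v => .inr (.inr (true, v.2.2.1)))))

/-- Decoding of the output. -/
def dec : Option B → List Bool → List B
  | _, [] => []
  | o, true :: w => dec (nxt o) w
  | o, false :: w => o.toList ++ dec o₀ w

/-- `n` steps lead from `c` to `d`. -/
def Run {C : Type} (f : C → Option C) (n : ℕ) (c d : C) : Prop :=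
  (flip bind f)^[n] (some c) = some d

theorem Run.trans {C : Type} {f : C → Option C} {a b : ℕ} {c d e : C} (h : Run f a c d)
    (h' : Run f b d e) : Run f (b + a) c e := by
  unfold Run at *
  rw [iterate_add_apply, h, h']

theorem Run.cons {C : Type} {f : C → Option C} {a : ℕ} {c d e : C} (h : f c = some d)
    (h' : Run f a d e) : Run f (a + 1) c e :=
  Run.trans (a := 1) h h'

theorem run_sim {n : ℕ} {c d : TM2.Cfg Γ Λ σ} (h : Run (TM2.step m) n c d) :
    Run (TM2.step (prog o₀ m main ca rd nxt)) n (lift o₀ c) (lift o₀ d) := by
  induction n generalizing c with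
  | zero =>
    obtain rfl : c = d := Option.some.inj h
    rfl
  | succ n ih =>
    obtain ⟨_ | l, v, S⟩ := c
    · have h2 : (flip bind (TM2.step m))^[n] none = some d := h
      rw [iterate_fixed (by rfl)] at h2
      exact absurd h2 (by simp)
    · exact Run.cons (congrArg some (stepAux_tr o₀ (m l) v S)) (ih h)

theorem run0 (x : List A) : ∀ (o : Option A) (t : List A) (v : σ) (a : Option A),
    Run (TM2.step (prog o₀ m main ca rd nxt)) (x.length + 1)
      ⟨some (.inr (.inl (false, o))), (v, a, none, none), stk S x t [] []⟩
      ⟨some (.inr (.inl (true, none))), (v, none, none, none),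
        stk S [] (x.reverse ++ (o.toList ++ t)) [] []⟩ := by
  induction x with
  | nil =>
    intro o t v a
    refine Run.cons (congrArg some ?_) rfl
    rw [prog, stepAux_pushW, up2]
    simp only [TM2.stepAux, up1]
    rfl
  | cons b x ih =>
    intro o t v a
    have := ih (some b) (o.toList ++ t) v (some b)
    rw [List.reverse_cons, List.append_assoc]
    refine Run.cons (congrArg some ?_) this
    rw [prog, stepAux_pushW, up2]
    simp only [TM2.stepAux, up1]
    rfl

theorem run1 (t : List A) : ∀ (o : Option A) (S : ∀ k, List (Γ k)) (v : σ) (a : Option A),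
    Run (TM2.step (prog o₀ m main ca rd nxt)) (t.length + 1)
      ⟨some (.inr (.inl (true, o))), (v, a, none, none), stk S [] t [] []⟩
      ⟨some (.inl main), (v, none, none, none),
        stk (update S k₀ (t.reverse.flatMap ca ++ (o.toList.flatMap ca ++ S k₀))) [] [] [] []⟩ := by
  induction t with
  | nil =>
    intro o S v a
    refine Run.cons (congrArg some ?_) rfl
    rw [prog, stepAux_pushW, up0]
    simp only [TM2.stepAux, up2]
    rfl
  | cons b t ih =>
    intro o S v a
    have := ih (some b) (update S k₀ (o.toList.flatMap ca ++ S k₀)) v (some b)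
    rw [update_idem, update_self] at this
    rw [List.reverse_cons, List.flatMap_append, List.append_assoc]
    refine Run.cons (congrArg some ?_) this
    rw [prog, stepAux_pushW, up0]
    simp only [TM2.stepAux, up2]
    rfl

theorem run2 (w : List (Γ k₁)) : ∀ (o : Option B) (S : ∀ k, List (Γ k)) (u : List B) (v : σ)
    (c : Option Bool), S k₁ = w →
    Run (TM2.step (prog o₀ m main ca rd nxt)) (w.length + 1)
      ⟨some (.inr (.inr (false, o))), (v, none, none, c), stk S [] [] u []⟩
      ⟨some (.inr (.inr (true, none))), (v, none, none, none),
        stk (update S k₁ []) [] [] ((dec o₀ nxt o (w.map rd)).reverse ++ u) []⟩ := by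
  induction w with
  | nil =>
    intro o S u v c h
    refine Run.cons (congrArg some ?_) rfl
    have e : stk S ([] : List A) [] u [] (.inl k₁) = [] := h
    rw [prog]
    simp only [TM2.stepAux, up0, e]
    rfl
  | cons b w ih =>
    intro o S u v c h
    have e : stk S ([] : List A) [] u [] (.inl k₁) = b :: w := h
    rcases hb : rd b with _ | _
    · have := ih o₀ (update S k₁ w) (o.toList ++ u) v (some false) (update_self _ _ _)
      rw [update_idem] at this
      have e2 : o.toList.reverse = o.toList := by cases o <;> rfl
      rw [List.map_cons, hb, dec, List.reverse_append, e2, List.append_assoc]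
      refine Run.cons (congrArg some ?_) this
      rw [prog]
      simp only [TM2.stepAux, e, List.head?_cons, List.tail_cons]
      rw [up0]
      have e3 : (Option.map rd (some b) == some false) = true := by simp [hb]
      refine (congrArg (fun y => cond y _ _) e3).trans ?_
      rw [cond_true, stepAux_pushW, up3]
      simp only [TM2.stepAux, Option.map_some]
      rw [hb]
      rfl
    · have := ih (nxt o) (update S k₁ w) u v (some true) (update_self _ _ _)
      rw [update_idem] at this
      rw [List.map_cons, hb, dec]
      refine Run.cons (congrArg some ?_) this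
      rw [prog]
      simp only [TM2.stepAux, e, List.head?_cons, List.tail_cons]
      rw [up0]
      have e3 : (Option.map rd (some b) == some false) = false := by simp [hb]
      refine (congrArg (fun y => cond y _ _) e3).trans ?_
      simp only [cond_false, Option.map_some]
      rw [hb]
      rfl

theorem run3 (u : List B) : ∀ (o : Option B) (z : List B) (v : σ) (a : Option B),
    Run (TM2.step (prog o₀ m main ca rd nxt)) (u.length + 1)
      ⟨some (.inr (.inr (true, o))), (v, none, a, none), stk S [] [] u z⟩
      ⟨none, (v, none, none, none), stk S [] [] [] (u.reverse ++ (o.toList ++ z))⟩ := by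
  induction u with
  | nil =>
    intro o z v a
    refine Run.cons (congrArg some ?_) rfl
    rw [prog, stepAux_pushW, up4]
    simp only [TM2.stepAux, up3]
    rfl
  | cons b u ih =>
    intro o z v a
    have := ih (some b) (o.toList ++ z) v (some b)
    rw [List.reverse_cons, List.append_assoc]
    refine Run.cons (congrArg some ?_) this
    rw [prog, stepAux_pushW, up4]
    simp only [TM2.stepAux, up3]
    rfl

end Machine

/-- A machine on binary words is turned into a machine with input alphabet `A` and output alphabet
`B`. -/
theorem recode {α β γ A B : Type} [Finite A] [Finite B] {ea : α → List A} {eb : β → List B}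
    {f : α → β} {ea' : α → List Bool} {eb' : γ → List Bool} {g : α → γ}
    (M : TM2ComputableInPolyTime ea' eb' g) (hM : ∀ k, Finite (M.tm.Γ k)) (ca : A → List Bool)
    (o₀ : Option B) (nxt : Option B → Option B) (C c : ℕ) (hC : ∀ a, (ca a).length ≤ C)
    (h1 : ∀ a, ea' a = (ea a).flatMap ca) (h2 : ∀ a, dec o₀ nxt o₀ (eb' (g a)) = eb (f a))
    (h3 : ∀ a, (eb' (g a)).length ≤ ((ea' a).length + 2) ^ c)
    (mono : ∀ {m n : ℕ}, m ≤ n → M.time.eval m ≤ M.time.eval n) :
    ∃ M' : TM2ComputableInPolyTime ea eb f, ∀ k, Finite (M'.tm.Γ k) := by
  classical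
  let _ := M.tm.kFin
  let _ := M.tm.ΛFin
  let _ := M.tm.σFin
  let _ := Fintype.ofFinite A
  let _ := Fintype.ofFinite B
  let P := prog o₀ M.tm.m M.tm.main (fun a => (ca a).map M.inputAlphabet.invFun)
    M.outputAlphabet nxt
  let tm : FinTM2 :=
    { K := M.tm.K ⊕ Bool ⊕ Bool
      k₀ := .inr (.inl false)
      k₁ := .inr (.inr true)
      Γ := G M.tm.Γ A B
      Λ := L M.tm.Λ A B
      main := .inr (.inl (false, none))
      σ := V M.tm.σ A B
      initialState := (M.tm.initialState, none, none, none)
      Γk₀Fin := ‹Fintype A›
      m := P }
  have hd : ∀ (w : List Bool) (o : Option B), (dec o₀ nxt o w).length ≤ w.length := fun w => by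
    induction w with
    | nil => exact fun _ => le_rfl
    | cons b w ih =>
      intro o
      cases b
      · have := ih o₀
        cases o <;> simp [dec] <;> omega
      · exact (ih _).trans (Nat.le_succ _)
  have key : ∀ a, ∃ n, n ≤ 2 * (ea a).length + M.time.eval (C * (ea a).length) +
      2 * (C * (ea a).length + 2) ^ c + 4 ∧
      Run (TM2.step P) n ⟨some (.inr (.inl (false, none))), (M.tm.initialState, none, none, none),
        stk (fun _ => []) (ea a) [] [] []⟩
        ⟨none, (M.tm.initialState, none, none, none), stk (fun _ => []) [] [] [] (eb (f a))⟩ := by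
    intro a
    have o := M.outputsFun a
    have r0 := run0 (S := fun _ => []) o₀ M.tm.m M.tm.main
      (fun a => (ca a).map M.inputAlphabet.invFun) M.outputAlphabet nxt (ea a) none []
      M.tm.initialState none
    have r1 := run1 o₀ M.tm.m M.tm.main (fun a => (ca a).map M.inputAlphabet.invFun)
      M.outputAlphabet nxt ((ea a).reverse ++ (none.toList ++ [])) none (fun _ => [])
      M.tm.initialState none
    have r2 := run_sim o₀ M.tm.m M.tm.main (fun a => (ca a).map M.inputAlphabet.invFun)
      M.outputAlphabet nxt (n := o.steps) o.evals_in_steps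
    have r3 := run2 o₀ M.tm.m M.tm.main (fun a => (ca a).map M.inputAlphabet.invFun)
      M.outputAlphabet nxt ((eb' (g a)).map M.outputAlphabet.invFun) o₀
      (haltList M.tm ((eb' (g a)).map M.outputAlphabet.invFun)).stk [] M.tm.initialState none
      (by simp [haltList])
    have e1 : update (fun k => ([] : List (M.tm.Γ k))) M.tm.k₀
        (((ea a).reverse ++ (none.toList ++ [])).reverse.flatMap
          (fun a => (ca a).map M.inputAlphabet.invFun) ++ ((none : Option A).toList.flatMap
          (fun a => (ca a).map M.inputAlphabet.invFun) ++ [])) =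
        (initList M.tm ((ea' a).map M.inputAlphabet.invFun)).stk := by
      funext k
      by_cases hk : k = M.tm.k₀
      · subst hk
        simp [initList, h1, List.map_flatMap]
      · simp [initList, hk]
    have e2 : update (haltList M.tm ((eb' (g a)).map M.outputAlphabet.invFun)).stk M.tm.k₁ [] =
        fun _ => [] := by
      funext k
      by_cases hk : k = M.tm.k₁
      · subst hk
        simp
      · simp [haltList, hk]
    have e3 : ((eb' (g a)).map M.outputAlphabet.invFun).map M.outputAlphabet = eb' (g a) := by
      simp
    rw [e1] at r1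
    rw [e2, e3, h2] at r3
    have r4 := run3 (S := fun _ => []) o₀ M.tm.m M.tm.main
      (fun a => (ca a).map M.inputAlphabet.invFun) M.outputAlphabet nxt
      ((eb (f a)).reverse ++ []) none [] M.tm.initialState none
    have e4 : ((eb (f a)).reverse ++ []).reverse ++ (none.toList ++ []) = eb (f a) := by simp
    rw [e4] at r4
    refine ⟨_, ?_, (((r0.trans r1).trans r2).trans r3).trans r4⟩
    have b1 := o.steps_le_m
    have b2 : (ea' a).length ≤ C * (ea a).length := by
      rw [h1]
      induction ea a with
      | nil => simp
      | cons x l ih =>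
        have := hC x
        rw [List.flatMap_cons, List.length_append, List.length_cons, Nat.mul_succ]
        omega
    have b3 := mono b2
    have b4 := (h3 a).trans (Nat.pow_le_pow_left (Nat.add_le_add_right b2 2) c)
    have b5 := hd (eb' (g a)) o₀
    rw [h2] at b5
    simp only [List.length_append, List.length_reverse, List.length_map, List.length_nil,
      Option.toList_none]
    omega
  choose n hn hrun using key
  refine ⟨{ tm := tm
            inputAlphabet := Equiv.refl A
            outputAlphabet := Equiv.refl B
            time := 2 * Polynomial.X + M.time.comp (Polynomial.C C * Polynomial.X) +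
              2 * (Polynomial.C C * Polynomial.X + 2) ^ c + 4
            outputsFun := fun a => ⟨⟨n a, ?_⟩, ?_⟩ }, ?_⟩
  · have e1 : initList tm (List.map (Equiv.refl A).invFun (ea a)) =
        ⟨some (.inr (.inl (false, none))), (M.tm.initialState, none, none, none),
        stk (fun _ => []) (ea a) [] [] []⟩ := by
      unfold initList
      congr 1
      funext k
      rcases k with k | (_ | _) | (_ | _)
      on_goal 2 => exact (dif_pos rfl).trans (List.map_id _)
      all_goals exact dif_neg (by simp [tm])
    have e2 : haltList tm (List.map (Equiv.refl B).invFun (eb (f a))) =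
        ⟨none, (M.tm.initialState, none, none, none), stk (fun _ => []) [] [] [] (eb (f a))⟩ := by
      unfold haltList
      congr 1
      funext k
      rcases k with k | (_ | _) | (_ | _)
      on_goal 5 => exact (dif_pos rfl).trans (List.map_id _)
      all_goals exact dif_neg (by simp [tm])
    have := hrun a
    rw [← e1, ← e2] at this
    exact this
  · simpa using hn a
  · rintro (k | _ | _)
    exacts [hM k, ‹Finite A›, ‹Finite B›]

end Vale.Agent.N333C
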