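import Vale.Agent.P333.Lower

/-!
The number of tokens is at most the length of every circular superstring, unless the circular word
is generated by a substring of a member of the instance.
-/

namespace Vale.Agent.N333C

open Finset Vale.Agent.P333

variable {N : ℕ} [NeZero N] (y : ZMod N → ℕ)

/-- `w` occurs at the place `n` of the circular word `y`. -/
def At (n : ZMod N) (w : Str) : Prop := ∀ s < w.length, y (n + (s : ℕ)) = w.getD s 0

open Classical in
/-- The places where `w` occurs. -/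
noncomputable def oc (w : Str) : Finset (ZMod N) := univ.filter fun n => At y n w

variable {y}

theorem mem_oc {w : Str} {n : ZMod N} : n ∈ oc y w ↔ At y n w := by simp [oc]

omit [NeZero N] in
theorem At.pre {n : ZMod N} {u v : Str} (h : At y n v) (huv : u <+: v) : At y n u := fun s hs => by
  obtain ⟨a, b⟩ := prefix_iff_getD.1 huv
  rw [h s (by omega), b s hs]

omit [NeZero N] in
theorem At.tail {n : ZMod N} {v : Str} (h : At y n v) : At y (n + 1) v.tail := fun s hs => by
  rw [List.length_tail] at hs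
  have := h (s + 1) (by omega)
  push_cast at this
  rw [add_assoc, add_comm 1, this]
  cases v with
  | nil => simp at hs
  | cons a l => simp

omit [NeZero N] in
theorem At.pre_of {n : ZMod N} {u v : Str} (h : At y n u) (h' : At y n v)
    (hl : u.length ≤ v.length) : u <+: v :=
  prefix_iff_getD.2 ⟨hl, fun s hs => by rw [← h s hs, ← h' s (by omega)]⟩

section Embed

variable {F : Finset (ZMod N)} {z : ZMod N → Str} {Z : List Str}

theorem cnt_le (h : F.val.map z = (Z : Multiset Str)) (he : ∀ n ∈ F, At y n (z n)) (v : Str) :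
    cnt Z v ≤ (oc y v).card := by
  rw [cnt_eq_card h]
  refine card_le_card fun n hn => ?_
  rw [mem_filter] at hn
  exact mem_oc.2 ((he n hn.1).pre hn.2)

theorem cntT_le (h : F.val.map z = (Z : Multiset Str)) (he : ∀ n ∈ F, At y n (z n)) (v : Str) :
    cntT Z v ≤ (oc y v).card := by
  rw [cntT_eq_card h]
  refine card_le_card_of_injOn (· + 1) (fun n hn => ?_) fun a _ b _ hab => add_right_cancel hab
  rw [mem_coe, mem_filter] at hn
  exact mem_coe.2 (mem_oc.2 ((he n hn.1).tail.pre hn.2))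

/-- The places of the hidden occurrences. -/
def hs (F : Finset (ZMod N)) (z : ZMod N → Str) (v : Str) (p j : ℕ) : Finset (ZMod N) :=
  (F.sigma fun t => (range (z t).length).filter fun k => hidB v p j (z t) k = true).image
    fun a => a.1 + (a.2 : ℕ)

omit [NeZero N] in
theorem mem_hs (he : ∀ n ∈ F, At y n (z n)) {v : Str} {p j : ℕ} {n : ZMod N} (hp : 0 < p)
    (hj : 0 < j) : n ∈ hs F z v p j ↔ ∃ t ∈ F, ∃ k : ℕ, t + k = n ∧ 1 ≤ k ∧
      k + j ≤ (z t).length ∧ y t ≠ extZ v p (-k) ∧
      (∀ l : ℕ, 1 ≤ l → l < k + j → y (t + l) = extZ v p ((l : ℤ) - k)) ∧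
      ∃ l : ℕ, 1 ≤ l ∧ l < (z t).length ∧ y (t + l) ≠ extZ v p ((l : ℤ) - k) := by
  simp only [hs, mem_image, mem_sigma, mem_filter, mem_range, hidB_iff, ext_eq hp]
  constructor
  · rintro ⟨⟨t, k⟩, ⟨ht, -, h1, h2, h3, h4, l, hl, h5, h6⟩, rfl⟩
    dsimp only at *
    refine ⟨t, ht, k, rfl, h1, h2, ?_, fun m hm hm' => ?_, l, h5, hl, ?_⟩
    · rw [← he t ht 0 (by omega)] at h3
      simpa using h3
    · rw [he t ht m (by omega), h4 m (by omega) hm hm']
    · rwa [he t ht l hl]
  · rintro ⟨t, ht, k, rfl, h1, h2, h3, h4, l, hm, hm', h5⟩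
    refine ⟨⟨t, k⟩, ⟨ht, by dsimp only; omega, h1, h2, ?_, fun l' hl' h6 h7 => ?_, l, hm', hm, ?_⟩,
      rfl⟩
    · dsimp only
      rw [← he t ht 0 (by omega)]
      simpa using h3
    · dsimp only at *
      rw [← he t ht l' hl', h4 l' h6 h7]
    · dsimp only
      rwa [← he t ht l hm']

omit [NeZero N] in
theorem card_hs (h : F.val.map z = (Z : Multiset Str)) (he : ∀ n ∈ F, At y n (z n))
    (v : Str) {p : ℕ} (hp : 0 < p) (j : ℕ) : (hs F z v p j).card = hid Z v p j := by
  have key : ∀ t ∈ F, ∀ t' ∈ F, ∀ k k' : ℕ, hidB v p j (z t) k = true → k < (z t).length →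
      hidB v p j (z t') k' = true → t + k = t' + k' → ¬ k < k' := by
    intro t ht t' ht' k k' h1 hk h2 h3 h4
    obtain ⟨a0, -, a1, -, -⟩ := hidB_iff.mp h1
    obtain ⟨-, b1, -, b2, -⟩ := hidB_iff.mp h2
    obtain ⟨d, rfl⟩ := Nat.exists_eq_add_of_le h4.le
    have b3 := b2 d (by omega) (by omega) (by omega)
    rw [← he t' ht' _ (by omega), ext_eq hp] at b3
    rw [← he t ht 0 (by omega), ext_eq hp] at a1
    apply a1
    have e : t + ((0 : ℕ) : ZMod N) = t' + d := by
      push_cast at h3 ⊢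
      linear_combination h3
    rw [e, b3]
    congr 1
    push_cast
    ring
  rw [hid_eq_card h, hs]
  refine card_image_of_injOn ?_
  rintro ⟨t, k⟩ h1 ⟨t', k'⟩ h2 h3
  simp only [coe_sigma, Set.mem_sigma_iff, mem_coe, mem_filter, mem_range] at h1 h2
  dsimp only at h3
  have a1 := key t h1.1 t' h2.1 k k' h1.2.2 h1.2.1 h2.2.2 h3
  have a2 := key t' h2.1 t h1.1 k' k h2.2.2 h2.2.1 h1.2.2 h3.symm
  obtain rfl : k = k' := by omega
  obtain rfl : t = t' := add_right_cancel h3
  rfl

theorem rule_le (h : F.val.map z = (Z : Multiset Str)) (he : ∀ n ∈ F, At y n (z n))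
    {u : Str} (hu : u ≠ []) (v : Str)
    (hno : ∀ p, 0 < p → p ≤ v.length → ∀ n : ZMod N, ¬∀ m : ℕ, y (n + m) = extZ v p m) :
    rule Z u v ≤ (oc y u).card := by
  classical
  unfold rule
  split_ifs with hc
  swap
  · exact Nat.zero_le _
  obtain ⟨hlt, huv, hper, hcnt⟩ := hc
  obtain ⟨p, hpdef⟩ : ∃ p, p = v.length - u.length := ⟨_, rfl⟩
  rw [← hpdef] at hper hcnt ⊢
  have hp : 0 < p := by omega
  have hupos : 0 < u.length := List.length_pos_iff.mpr hu
  have hvX := getD_eq_extZ hp hper
  have huX : ∀ s < u.length, u.getD s 0 = extZ v p s := fun s hs => by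
    rw [← (prefix_iff_getD.mp huv).2 s hs, hvX s (by omega)]
  have hOu : ∀ n, n ∈ oc y u ↔ ∀ s < u.length, y (n + (s : ℕ)) = extZ v p s := fun n => by
    rw [mem_oc]
    exact forall₂_congr fun s hs => by rw [huX s hs]
  have hOv : ∀ n, n ∈ oc y v ↔ ∀ s < v.length, y (n + (s : ℕ)) = extZ v p s := fun n => by
    rw [mem_oc]
    exact forall₂_congr fun s hs => by rw [hvX s hs]
  have hHu := fun n => mem_hs he (v := v) (n := n) hp hupos
  have hHv := fun n => mem_hs he (v := v) (n := n) hp (hupos.trans hlt)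
  rw [← card_hs h he v hp, ← card_hs h he v hp]
  rw [← card_hs h he v hp] at hcnt
  have hcv := cnt_le h he v
  generalize hs F z v p u.length = Hu at *
  generalize hs F z v p v.length = Hv at *
  have s1 : Hu ⊆ oc y u := fun n hn => by
    obtain ⟨t, ht, k, rfl, h1, h2, -, h4, -⟩ := (hHu n).mp hn
    refine (hOu _).mpr fun s hs => ?_
    have := h4 (k + s) (by omega) (by omega)
    push_cast at this
    rw [add_assoc, this, add_sub_cancel_left]
  have s2 : oc y v ⊆ oc y u := fun n hn =>
    (hOu n).mpr fun s hs => (hOv n).mp hn s (by omega)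
  have s4 : ∀ n ∈ Hu, n ∈ oc y v → n ∈ Hv := fun n hn hn' => by
    obtain ⟨t, ht, k, rfl, h1, h2, h3, h4, m, h5, h6, h7⟩ := (hHu n).mp hn
    have h9 := (hOv _).mp hn'
    have hall : ∀ l : ℕ, 1 ≤ l → l < k + v.length → y (t + l) = extZ v p ((l : ℤ) - k) :=
      fun l hl hl' => by
        by_cases hkl : k ≤ l
        · obtain ⟨s, rfl⟩ := Nat.exists_eq_add_of_le hkl
          have := h9 s (by omega)
          push_cast
          rw [← add_assoc, this, add_sub_cancel_left]
        · exact h4 l hl (by omega)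
    have : ¬ m < k + v.length := fun hm => h7 (hall m h5 hm)
    exact (hHv _).mpr ⟨t, ht, k, rfl, h1, by omega, h3, hall, m, h5, h6, h7⟩
  have hne : (oc y v \ Hv).Nonempty := by
    rw [← card_pos]
    have := le_card_sdiff Hv (oc y v)
    omega
  obtain ⟨n, hn, b3⟩ : ∃ n ∈ oc y v \ Hv, n + (p : ℕ) ∉ oc y v \ Hv := by
    by_contra hcon
    simp only [not_exists, not_and, not_not] at hcon
    obtain ⟨n, hn⟩ := hne
    have a : ∀ i : ℕ, n + (p * i : ℕ) ∈ oc y v \ Hv := fun i => by
      induction i with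
      | zero => simpa using hn
      | succ i ih =>
        have := hcon _ ih
        rwa [add_assoc, ← Nat.cast_add, ← Nat.mul_succ] at this
    refine hno p hp (by omega) n fun m => ?_
    have b := (hOv _).mp (mem_sdiff.1 (a (m / p))).1 (m % p)
      ((Nat.mod_lt _ hp).trans_le (by omega))
    rw [add_assoc, ← Nat.cast_add, Nat.div_add_mod] at b
    rw [b]
    unfold extZ
    rw [Int.natCast_mod, Int.emod_emod_of_dvd _ dvd_rfl]
  obtain ⟨hn1, hn2⟩ := mem_sdiff.mp hn
  have a2 := (hOv n).mp hn1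
  have b1 : n + (p : ℕ) ∈ oc y u := (hOu _).mpr fun s hs => by
    have := a2 (p + s) (by omega)
    push_cast at this
    rw [add_assoc, this, add_comm, extZ_add]
  have b2 : n + (p : ℕ) ∉ Hu := fun hn' => by
    obtain ⟨t, ht, k, e, h1, h2, h3, h4, m, h5, h6, h7⟩ := (hHu _).mp hn'
    by_cases hk : k ≤ p
    · obtain ⟨d, rfl⟩ := Nat.exists_eq_add_of_le hk
      apply h3
      have e' : t = n + d := by
        push_cast at e
        linear_combination e
      rw [e', a2 d (by omega), ← extZ_add v (k + d) (-k)]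
      congr 1
      push_cast
      ring
    · obtain ⟨d, rfl⟩ := Nat.exists_eq_add_of_le (not_le.1 hk).le
      have sh : ∀ l : ℤ, extZ v p (l - (p + d : ℕ)) = extZ v p (l - d) := fun l => by
        rw [← extZ_add v p]
        congr 1
        push_cast
        ring
      refine hn2 ((hHv n).mpr ⟨t, ht, d, ?_, by omega, by omega, ?_, fun l hl hl' => ?_,
        m, h5, h6, by rwa [← sh]⟩)
      · push_cast at e
        linear_combination e
      · have := sh 0
        rw [zero_sub, zero_sub] at this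
        rwa [← this]
      · rw [← sh, h4 l hl (by omega)]
  have hdisj : Disjoint Hu (oc y v \ Hv) := disjoint_left.mpr fun a ha ha' =>
    (mem_sdiff.mp ha').2 (s4 a ha (mem_sdiff.mp ha').1)
  have hsub : insert (n + (p : ℕ)) (Hu ∪ (oc y v \ Hv)) ⊆ oc y u :=
    insert_subset b1 (union_subset s1 (sdiff_subset.trans s2))
  have hc := card_le_card hsub
  rw [card_insert_of_notMem (by simp only [mem_union, not_or]; exact ⟨b2, b3⟩),
    card_union_of_disjoint hdisj] at hc
  have := le_card_sdiff Hv (oc y v)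
  omega

end Embed

variable (y)

/-- The members of `Z` can be placed at pairwise different places of `y`. -/
def Emb (Z : List Str) : Prop :=
  ∃ (F : Finset (ZMod N)) (z : ZMod N → Str), F.val.map z = (Z : Multiset Str) ∧
    ∀ n ∈ F, At y n (z n)

variable {y}

theorem Emb.addTok {Z : List Str} (hE : Emb y Z) {uv : Str × Str} (hu : uv.1 ≠ [])
    (hT : ∃ n, At y n uv.1) (hl : ∀ a ∈ Z, uv.1.length ≤ a.length)
    (hno : ∀ p, 0 < p → p ≤ uv.2.length → ∀ n : ZMod N, ¬∀ m : ℕ, y (n + m) = extZ uv.2 p m) :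
    Emb y (addTok Z uv) := by
  obtain ⟨F, z, h, he⟩ := hE
  obtain ⟨u, v⟩ := uv
  dsimp only at hu hT hl hno
  have h1 : req Z u v ≤ (oc y u).card := by
    refine max_le (max_le ?_ (cntT_le h he u)) (rule_le h he hu v hno)
    obtain ⟨n, hn⟩ := hT
    exact card_pos.mpr ⟨n, mem_oc.2 hn⟩
  have h2 : (oc y u ∩ F).card ≤ cnt Z u := by
    rw [cnt_eq_card h]
    refine card_le_card fun n hn => ?_
    obtain ⟨hn1, hn2⟩ := mem_inter.mp hn
    refine mem_filter.mpr ⟨hn2, (mem_oc.1 hn1).pre_of (he n hn2) (hl _ ?_)⟩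
    rw [← Multiset.mem_coe, ← h]
    exact Multiset.mem_map_of_mem _ hn2
  have h3 : req Z u v - cnt Z u ≤ (oc y u \ F).card := by
    have := card_sdiff_add_card_inter (oc y u) F
    omega
  obtain ⟨G, hG, hc⟩ := exists_subset_card_eq h3
  have hd : Disjoint F G := disjoint_left.mpr fun a ha ha' => (mem_sdiff.mp (hG ha')).2 ha
  refine ⟨F.disjUnion G hd, fun n => if n ∈ F then z n else u, ?_, fun n hn => ?_⟩
  · rw [disjUnion_val, Multiset.map_add, Vale.Agent.P333.addTok, ← Multiset.coe_add, ← h,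
      Multiset.coe_replicate]
    congr 1
    · exact Multiset.map_congr rfl fun n hn => if_pos hn
    · rw [← hc, Multiset.eq_replicate]
      refine ⟨by simp, fun b hb => ?_⟩
      obtain ⟨n, hn, rfl⟩ := Multiset.mem_map.mp hb
      exact if_neg fun hn' => disjoint_left.mp hd hn' hn
  · by_cases hn' : n ∈ F
    · simpa [hn'] using he n hn'
    · have hnG : n ∈ G := (mem_disjUnion.mp hn).resolve_left hn'
      simpa [hn'] using mem_oc.1 (mem_sdiff.mp (hG hnG)).1

theorem emb_foldl {l : List (Str × Str)}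
    (hl : l.Pairwise fun a b => b.1.length ≤ a.1.length)
    (hT : ∀ uv ∈ l, uv.1 ≠ [] ∧ (∃ n, At y n uv.1) ∧ ∀ p, 0 < p → p ≤ uv.2.length →
      ∀ n : ZMod N, ¬∀ m : ℕ, y (n + m) = extZ uv.2 p m) : Emb y (l.foldl addTok []) := by
  induction l using List.reverseRecOn with
  | nil => exact ⟨∅, fun _ => [], rfl, by simp⟩
  | append_singleton l uv ih =>
    rw [List.pairwise_append] at hl
    rw [List.foldl_append, List.foldl_cons, List.foldl_nil]
    refine (ih hl.1 fun a ha => hT a (by simp [ha])).addTok (hT uv (by simp)).1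
      (hT uv (by simp)).2.1 (fun a ha => ?_) (hT uv (by simp)).2.2
    obtain ⟨c, hc, rfl⟩ := foldl_addTok_mem l a ha
    exact hl.2.2 c hc uv (by simp)

theorem Emb.length_le {Z : List Str} (hE : Emb y Z) : Z.length ≤ N := by
  obtain ⟨F, z, h, -⟩ := hE
  rw [length_eq_card h]
  exact (card_le_univ F).trans (ZMod.card N).le

omit [NeZero N] in
theorem At.inf {n : ZMod N} {u v : Str} (h : At y n v) (huv : u <:+: v) : ∃ m, At y m u := by
  obtain ⟨a, b, rfl⟩ := huv
  refine ⟨n + (a.length : ℕ), fun s hs => ?_⟩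
  have := h (a.length + s) (by simp; omega)
  push_cast at this
  rw [add_assoc, this, List.append_assoc, List.getD_append_right _ _ _ _ (by omega),
    Nat.add_sub_cancel_left, List.getD_append _ _ _ _ hs]

/-- The lower bound for circular words. -/
theorem tokens_le_or {S : List Str} (h : ∀ s ∈ S, ∃ n, At y n s) :
    (tokens S).length ≤ N ∨ ∃ v ∈ subs S, ∃ p, 0 < p ∧ p ≤ v.length ∧
      ∃ n : ZMod N, ∀ m : ℕ, y (n + m) = extZ v p m := by
  by_contra hc
  simp only [not_or, not_exists, not_and] at hc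
  refine hc.1 (emb_foldl (y := y) (pairs_sorted S) fun uv huv => ?_).length_le
  obtain ⟨a, b⟩ := mem_pairs.1 huv
  obtain ⟨a1, s, hs, a2⟩ := mem_subs.1 a
  obtain ⟨n, hn⟩ := h s hs
  exact ⟨a1, hn.inf a2, hc.2 _ b⟩

end Vale.Agent.N333C
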