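import Vale.Agent.N333C.Defs
import Vale.Agent.N333C.Low
import Vale.Agent.P333.Final

/-!
The algorithms with guarantees against the shortest circular superstring.
-/

namespace Vale.Agent.N333C

open Vale.Agent.P333 Vale.Agent.Lib.PolyTime

/-! ### Basic facts -/

section

variable {A : Type}

theorem super_flatten (S : List (List A)) : Super S S.flatten :=
  fun _ hs => List.infix_of_mem_flatten hs

theorem Super.circ {S : List (List A)} {T : List A} (h : Super S T) : Circ S T :=
  fun s hs => ⟨1, by simpa using h s hs⟩

theorem exists_OPT (S : List (List A)) : ∃ T, Super S T ∧ T.length = OPT S :=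
  Nat.sInf_mem (s := {n | ∃ T, Super S T ∧ T.length = n}) ⟨_, S.flatten, super_flatten S, rfl⟩

theorem exists_cyc (S : List (List A)) : ∃ T, Circ S T ∧ T.length = CYC S :=
  Nat.sInf_mem (s := {n | ∃ T, Circ S T ∧ T.length = n})
    ⟨_, S.flatten, (super_flatten S).circ, rfl⟩

theorem cyc_le {S : List (List A)} {T : List A} (h : Circ S T) : CYC S ≤ T.length :=
  Nat.sInf_le ⟨T, h, rfl⟩

theorem cyc_le_opt (S : List (List A)) : CYC S ≤ OPT S := by
  obtain ⟨T, h, e⟩ := exists_OPT S
  exact e ▸ cyc_le h.circ

theorem le_maxLen {S : List (List A)} {s : List A} (h : s ∈ S) : s.length ≤ maxLen S := by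
  induction S with
  | nil => simp at h
  | cons t S ih =>
    rcases List.mem_cons.1 h with rfl | h
    · exact le_max_left _ _
    · exact (ih h).trans (le_max_right _ _)

theorem maxLen_le {S : List (List A)} {n : ℕ} (h : ∀ s ∈ S, s.length ≤ n) : maxLen S ≤ n := by
  induction S with
  | nil => exact Nat.zero_le _
  | cons t S ih =>
    exact max_le (h t List.mem_cons_self) (ih fun s hs => h s (List.mem_cons_of_mem _ hs))

theorem maxLen_le_opt (S : List (List A)) : maxLen S ≤ OPT S := by
  obtain ⟨T, h, e⟩ := exists_OPT S
  exact e ▸ maxLen_le fun s hs => (h s hs).length_le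

theorem maxLen_le_flatten (S : List (List A)) : maxLen S ≤ S.flatten.length :=
  maxLen_le fun s hs => (super_flatten S s hs).length_le

end

/-- The first `n` letters of `c c c ⋯`. -/
def per (c : Str) (n : ℕ) : Str := (List.range n).map fun l => c.getD (l % c.length) 0

theorem length_per (c : Str) (n : ℕ) : (per c n).length = n := by simp [per]

theorem getD_per (c : Str) {n l : ℕ} (h : l < n) :
    (per c n).getD l 0 = c.getD (l % c.length) 0 := by
  simp [per, h]

theorem getD_pow (c : Str) (k : ℕ) : ∀ l < k * c.length,
    (List.replicate k c).flatten.getD l 0 = c.getD (l % c.length) 0 := by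
  induction k with
  | zero => simp
  | succ k ih =>
    intro l hl
    rw [List.replicate_succ, List.flatten_cons]
    rcases lt_or_ge l c.length with h | h
    · rw [List.getD_append _ _ _ _ h, Nat.mod_eq_of_lt h]
    · rw [List.getD_append_right _ _ _ _ h, ih _ (by rw [Nat.succ_mul] at hl; omega),
        Nat.mod_eq_sub_mod h]

theorem length_pow (c : Str) (k : ℕ) : (List.replicate k c).flatten.length = k * c.length := by
  simp

theorem per_prefix {c : Str} (hc : c ≠ []) (n : ℕ) : per c n <+: (List.replicate n c).flatten := by
  have h : n ≤ n * c.length := Nat.le_mul_of_pos_right _ (List.length_pos_iff.2 hc)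
  refine prefix_iff_getD.2 ⟨by rwa [length_per, length_pow], fun s hs => ?_⟩
  rw [length_per] at hs
  rw [getD_per c hs, getD_pow c n s (by omega)]

theorem mem_per {c : Str} (hc : c ≠ []) {n a : ℕ} (h : a ∈ per c n) : a ∈ c := by
  obtain ⟨l, -, rfl⟩ := List.mem_map.1 h
  rw [List.getD_eq_getElem _ _ (Nat.mod_lt _ (List.length_pos_iff.2 hc))]
  exact List.getElem_mem _

/-! ### The algorithms -/

/-- The circle `c`, cut open. -/
def lin (S : List Str) (c : Str) : Str := per c (c.length - 1 + maxLen S)

/-- Test that `c` is a circular superstring. -/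
def cov (S : List Str) (c : Str) : Bool :=
  S.all fun s => (List.range c.length).any fun i => decide (s <+: (lin S c).drop i)

/-- A shortest circular superstring among the substrings of the members of `S`. -/
def best (S : List Str) : Option Str := (subs S).reverse.find? (cov S)

/-- The `2`-approximation, with foreign letters deleted. -/
def app (S : List Str) : Str := (approx S).filter fun a => S.flatten.any fun b => decide (a = b)

/-- The shorter of two strings. -/
def shorter (u v : Str) : Str := if u.length ≤ v.length then u else v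

/-- The linear superstring. -/
def algLin (S : List Str) : Str :=
  match best S with
  | none => app S
  | some c => shorter (lin S c) (app S)

/-- The circular superstring. -/
def algCirc (S : List Str) : Str :=
  match best S with
  | none => app S
  | some c => shorter c (app S)

theorem app_super (S : List Str) : Super S (app S) := fun s hs => by
  have h := (approx_super_of (existsMove_of keyPerm) (tokens_ok S) s hs).filter
    fun a => S.flatten.any fun b => decide (a = b)
  rwa [List.filter_eq_self.2 fun a ha => List.any_eq_true.2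
    ⟨a, List.mem_flatten.2 ⟨s, hs, ha⟩, by simp⟩] at h

theorem app_length (S : List Str) : (app S).length ≤ 2 * (tokens S).length :=
  (List.length_filter_le _ _).trans (approx_length_of (tokens_ok S))

theorem app_mem {S : List Str} {a : ℕ} (h : a ∈ app S) : ∃ s ∈ S, a ∈ s := by
  obtain ⟨b, hb, e⟩ := List.any_eq_true.1 (List.mem_filter.1 h).2
  rw [decide_eq_true_eq] at e
  exact List.mem_flatten.1 (e ▸ hb)

theorem cov_super {S : List Str} {c : Str} (h : cov S c = true) : Super S (lin S c) :=
  fun s hs => by
    obtain ⟨i, -, hi⟩ := List.any_eq_true.1 (List.all_eq_true.1 h s hs)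
    exact (of_decide_eq_true hi).isInfix.trans (List.drop_suffix _ _).isInfix

theorem cov_circ {S : List Str} {c : Str} (hc : c ≠ []) (h : cov S c = true) : Circ S c :=
  fun s hs => ⟨_, (cov_super h s hs).trans (per_prefix hc _).isInfix⟩

theorem best_some {S : List Str} {c : Str} (h : best S = some c) :
    c ∈ subs S ∧ cov S c = true ∧ ∀ d ∈ subs S, cov S d = true → c.length ≤ d.length := by
  refine ⟨List.mem_reverse.1 (List.mem_of_find?_eq_some h), List.find?_some h, fun d hd h' => ?_⟩
  obtain ⟨-, as, bs, e, has⟩ := List.find?_eq_some_iff_append.1 h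
  have hs := List.pairwise_reverse.2 (subs_sorted S)
  have hd' := List.mem_reverse.2 hd
  rw [e] at hs hd'
  rcases List.mem_append.1 hd' with hd' | hd'
  · simpa [h'] using has d hd'
  · rcases List.mem_cons.1 hd' with rfl | hd'
    · exact le_rfl
    · exact List.rel_of_pairwise_cons (List.pairwise_append.1 hs).2.1 hd'

/-- The lower bound. -/
theorem lower (S : List Str) :
    (tokens S).length ≤ CYC S ∨ ∃ d ∈ subs S, cov S d = true ∧ d.length ≤ CYC S := by
  obtain ⟨T, hT, e⟩ := exists_cyc S
  rw [← e]
  by_cases h0 : T = []
  · subst h0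
    refine Or.inl (tokens_le fun s hs => ?_)
    obtain ⟨k, hk⟩ := hT s hs
    simpa using hk
  have hN : 0 < T.length := List.length_pos_iff.2 h0
  have : NeZero T.length := ⟨hN.ne'⟩
  have hAt : ∀ s ∈ S, ∃ n : ZMod T.length, At (fun i => T.getD i.val 0) n s := fun s hs => by
    obtain ⟨k, a, b, hk⟩ := hT s hs
    refine ⟨(a.length : ℕ), fun l hl => ?_⟩
    have h1 := congrArg List.length hk
    rw [length_pow, List.length_append, List.length_append] at h1
    dsimp only
    rw [← Nat.cast_add, ZMod.val_natCast, ← getD_pow T k _ (by omega), ← hk, List.append_assoc,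
      List.getD_append_right _ _ _ _ (by omega), Nat.add_sub_cancel_left,
      List.getD_append _ _ _ _ hl]
  refine (tokens_le_or hAt).imp_right ?_
  rintro ⟨v, hv, p, hp, hpv, n, hn⟩
  obtain ⟨hv0, t, ht, hvt⟩ := mem_subs.1 hv
  have hl : (v.take (min p T.length)).length = min p T.length := by
    rw [List.length_take]
    omega
  have hq : 0 < min p T.length := lt_min hp hN
  have key : ∀ m : ℕ, T.getD (n + (m : ℕ) : ZMod T.length).val 0 =
      (v.take (min p T.length)).getD (m % min p T.length) 0 := fun m => by
    have h1 := Nat.mod_lt m hq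
    rw [← (prefix_iff_getD.1 (List.take_prefix (min p T.length) v)).2 _ (by omega)]
    rcases le_total p T.length with h | h
    · rw [min_eq_left h]
      refine (hn m).trans ?_
      unfold extZ
      rw [← Int.natCast_mod, Int.toNat_natCast]
    · rw [min_eq_right h] at h1 ⊢
      have h2 := hn (m % T.length)
      rw [ZMod.natCast_mod] at h2
      refine h2.trans ?_
      unfold extZ
      rw [← Int.natCast_mod, Int.toNat_natCast, Nat.mod_eq_of_lt (by omega)]
  refine ⟨v.take (min p T.length), mem_subs.2 ⟨fun h => ?_, t, ht,
    (List.take_prefix _ _).isInfix.trans hvt⟩, ?_, by omega⟩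
  · rw [h] at hl
    simp only [List.length_nil] at hl
    omega
  refine List.all_eq_true.2 fun s hs => List.any_eq_true.2 ?_
  obtain ⟨n', hn'⟩ := hAt s hs
  have h1 := Nat.mod_lt (n' - n).val hq
  have h2 := le_maxLen hs
  refine ⟨(n' - n).val % min p T.length, List.mem_range.2 (by omega),
    decide_eq_true (prefix_iff_getD.2 ⟨?_, fun l hl' => ?_⟩)⟩
  · rw [List.length_drop, lin, length_per, hl]
    omega
  · rw [← hn' l hl', List.getD_eq_getElem?_getD, List.getElem?_drop, ← List.getD_eq_getElem?_getD,
      lin, getD_per _ (by omega), hl, Nat.mod_add_mod, ← key, Nat.cast_add, ZMod.natCast_zmod_val,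
      ← add_assoc, add_sub_cancel]

theorem shorter_cases (u v : Str) : shorter u v = u ∨ shorter u v = v := by
  unfold shorter
  split_ifs <;> simp

theorem shorter_le (u v : Str) :
    (shorter u v).length ≤ u.length ∧ (shorter u v).length ≤ v.length := by
  unfold shorter
  split_ifs <;> omega

theorem algLin_ok (S : List Str) : Super S (algLin S) ∧
    (algLin S).length ≤ CYC S + max (CYC S) (maxLen S - 1) ∧ ∀ a ∈ algLin S, ∃ s ∈ S, a ∈ s := by
  have h1 := app_length S
  unfold algLin
  rcases e : best S with _ | c
  · refine ⟨app_super S, ?_, fun a => app_mem⟩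
    rcases lower S with h | ⟨d, hd, h, -⟩
    · dsimp only
      omega
    · exact absurd h (List.find?_eq_none.1 e d (List.mem_reverse.2 hd))
  · obtain ⟨a1, a2, a3⟩ := best_some e
    obtain ⟨b1, t, ht, b2⟩ := mem_subs.1 a1
    dsimp only
    refine ⟨?_, ?_, ?_⟩
    · rcases shorter_cases (lin S c) (app S) with h | h <;> rw [h]
      exacts [cov_super a2, app_super S]
    · obtain ⟨h2, h3⟩ := shorter_le (lin S c) (app S)
      rcases lower S with h | ⟨d, hd, h, h'⟩
      · omega
      · have h4 := a3 d hd h
        have h5 := List.length_pos_iff.2 b1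
        have h6 := b2.length_le.trans (le_maxLen ht)
        rw [lin, length_per, ← lin] at h2
        omega
    · rcases shorter_cases (lin S c) (app S) with h | h <;> rw [h]
      exacts [fun a ha => ⟨t, ht, b2.subset (mem_per b1 ha)⟩, fun a => app_mem]

theorem algCirc_ok (S : List Str) : Circ S (algCirc S) ∧
    (algCirc S).length ≤ 2 * CYC S ∧ ∀ a ∈ algCirc S, ∃ s ∈ S, a ∈ s := by
  have h1 := app_length S
  unfold algCirc
  rcases e : best S with _ | c
  · refine ⟨(app_super S).circ, ?_, fun a => app_mem⟩
    rcases lower S with h | ⟨d, hd, h, -⟩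
    · dsimp only
      omega
    · exact absurd h (List.find?_eq_none.1 e d (List.mem_reverse.2 hd))
  · obtain ⟨a1, a2, a3⟩ := best_some e
    obtain ⟨b1, t, ht, b2⟩ := mem_subs.1 a1
    dsimp only
    refine ⟨?_, ?_, ?_⟩
    · rcases shorter_cases c (app S) with h | h <;> rw [h]
      exacts [cov_circ b1 a2, (app_super S).circ]
    · obtain ⟨h2, h3⟩ := shorter_le c (app S)
      rcases lower S with h | ⟨d, hd, h, h'⟩
      · omega
      · have h4 := a3 d hd h
        omega
    · rcases shorter_cases c (app S) with h | h <;> rw [h]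
      exacts [fun a ha => ⟨t, ht, b2.subset ha⟩, fun a => app_mem]

/-! ### Polynomial time -/

variable {α : Type} [Enc α]

theorem pt_maxLen : PT ∅ (maxLen : List Str → ℕ) := by
  refine (PT.foldr (l := fun S : List Str => S) (init := fun _ => 0)
    (f := fun _ (s : Str) (m : ℕ) => max s.length m) PT.id (PT.const 0)
    (PT.max PT.snd'.fst.length PT.snd'.snd) (b := fun S => S.flatten.length)
    (PBd.length (A := ∅) PT.id.flatten) fun S i => ?_).congr fun S => ?_
  · have h : (S.drop i).foldr (fun (s : Str) (m : ℕ) => max s.length m) 0 = maxLen (S.drop i) := by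
      rw [maxLen, List.foldr_map]
    rw [h]
    refine (esize_nat_le_self _).trans (maxLen_le fun s hs => ?_)
    exact (isSuperstring_flatten S s (List.mem_of_mem_drop hs)).length_le
  · rw [maxLen, List.foldr_map]

theorem pt_lin {S : α → List Str} {c : α → Str} (hS : PT ∅ S) (hc : PT ∅ c) :
    PT ∅ (fun a => lin (S a) (c a)) := by
  refine PT.map (f := fun a l => (c a).getD (l % (c a).length) 0)
    (PT.range ((hc.length.sub (PT.const 1)).add (pt_maxLen.comp hS)) ?_)
    (PT.getD (hc.comp PT.fst') (PT.mod PT.snd' (hc.comp PT.fst').length) (PT.const 0))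
  refine ((PBd.length hc).add (PBd.length hS.flatten)).mono fun a => ?_
  have := maxLen_le_flatten (S a)
  omega

theorem pt_cov {S : α → List Str} {c : α → Str} (hS : PT ∅ S) (hc : PT ∅ c) :
    PT ∅ (fun a => cov (S a) (c a)) := by
  refine PT.all (f := fun a (s : Str) => (List.range (c a).length).any fun i =>
    decide (s <+: (lin (S a) (c a)).drop i)) hS ?_
  refine PT.any (f := fun (q : α × Str) i => decide (q.2 <+: (lin (S q.1) (c q.1)).drop i))
    (pt_rangeLen (hc.comp PT.fst')) ?_
  exact pt_prefix PT.fst'.snd (PT.drop ((pt_lin hS hc).comp PT.fst'.fst) PT.snd')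

theorem pt_best : PT ∅ best :=
  PT.find? (f := fun S c => cov S c) pt_subs.reverse (pt_cov PT.fst' PT.snd')

theorem pt_app : PT ∅ app := by
  refine PT.filter (f := fun (S : List Str) (a : ℕ) => S.flatten.any fun b => decide (a = b))
    (approx_PT_of fun S i => foldl_addTok_le (isSuperstring_flatten S) i) ?_
  exact PT.any (f := fun (q : List Str × ℕ) (b : ℕ) => decide (q.2 = b)) PT.fst'.flatten
    (PT.eqNat PT.fst'.snd PT.snd')

theorem pt_shorter {u v : α → Str} (hu : PT ∅ u) (hv : PT ∅ v) :
    PT ∅ (fun a => shorter (u a) (v a)) :=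
  PT.ite (PT.le hu.length hv.length) hu hv

theorem pt_algLin : PT ∅ algLin := by
  refine (PT.optCase (g := fun S c => shorter (lin S c) (app S)) pt_best pt_app
    (pt_shorter (pt_lin PT.fst' PT.snd') (pt_app.comp PT.fst'))).congr fun S => ?_
  unfold algLin
  rcases best S with _ | c <;> rfl

theorem pt_algCirc : PT ∅ algCirc := by
  refine (PT.optCase (g := fun S c => shorter c (app S)) pt_best pt_app
    (pt_shorter PT.snd' (pt_app.comp PT.fst'))).congr fun S => ?_
  unfold algCirc
  rcases best S with _ | c <;> rfl

end Vale.Agent.N333C
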