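import Mathlib.Computability.TuringMachine.Computable
import Mathlib.Order.Lattice.Nat
import Mathlib.Algebra.Order.Archimedean.Real.Basic

/-!
Linear and circular superstrings. A string over the alphabet `A` is a list of letters, an instance
is a list of strings.
-/

namespace Vale.Agent.N333C

variable {A : Type}

/-- `T` is a common superstring of `S`: every member of `S` is a contiguous substring of `T`. -/
def Super (S : List (List A)) (T : List A) : Prop := ∀ s ∈ S, s <:+: T

/-- `OPT(S)`: the minimum length of a common superstring of `S`. -/
noncomputable def OPT (S : List (List A)) : ℕ := sInf {n | ∃ T, Super S T ∧ T.length = n}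

/-- `T` is a circular superstring of `S`: every member of `S` is a contiguous substring of a power
`T T ⋯ T` of `T`, that is, it can be read along the circle on which `T` is written. -/
def Circ (S : List (List A)) (T : List A) : Prop :=
  ∀ s ∈ S, ∃ k, s <:+: (List.replicate k T).flatten

/-- `CYC(S)`: the minimum length of a circular superstring of `S`. -/
noncomputable def CYC (S : List (List A)) : ℕ := sInf {n | ∃ T, Circ S T ∧ T.length = n}

/-- The largest length of a member of `S`. -/
def maxLen (S : List (List A)) : ℕ := (S.map List.length).foldr max 0

/-- The word `s₁ # s₂ # ⋯ sₘ #`, where the separator `#` is the new letter `none`. -/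
def tape (S : List (List A)) : List (Option A) := S.flatMap fun s => s.map some ++ [none]

/-- A string of natural numbers: its letters are written in binary, with separators. -/
def binary (T : List ℕ) : List (Option Bool) := tape (T.map Nat.bits)

/-- `f` is computed in polynomial time by a deterministic Turing machine with finite alphabets:
started on the word `ea a`, it halts with the word `eb (f a)` within a number of steps that is
polynomial in the length of `ea a`. -/
def PolyTime {α β X Y : Type} (ea : α → List X) (eb : β → List Y) (f : α → β) : Prop :=
  ∃ M : Turing.TM2ComputableInPolyTime ea eb f, ∀ k, Finite (M.tm.Γ k)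

/-- There is a polynomial time `ρ`-approximation (the letters are arbitrary natural numbers, so the
alphabet is not fixed in advance). -/
def Approx (ρ : ℝ) : Prop :=
  ∃ f : List (List ℕ) → List ℕ, PolyTime (fun S => tape (S.map binary)) binary f ∧
    ∀ S, Super S (f S) ∧ ((f S).length : ℝ) ≤ ρ * OPT S

/-- `ρ*`: the infimum of all `ρ ≥ 1` for which a `ρ`-approximation exists. -/
noncomputable def rho : ℝ := sInf {ρ | 1 ≤ ρ ∧ Approx ρ}

/-- On every instance `S`, `f S` is a common superstring of length at most
`CYC(S) + max (CYC(S), maxLen(S) - 1)` and at most `2 OPT(S)`, `g S` is a circular superstring of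
length at most `2 CYC(S)`, and all letters of `f S` and `g S` occur in members of `S`. -/
def Good (f g : List (List A) → List A) : Prop :=
  ∀ S, Super S (f S) ∧ (f S).length ≤ CYC S + max (CYC S) (maxLen S - 1) ∧
    (f S).length ≤ 2 * OPT S ∧ Circ S (g S) ∧ (g S).length ≤ 2 * CYC S ∧
    ∀ a ∈ f S ++ g S, ∃ s ∈ S, a ∈ s

end Vale.Agent.N333C
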