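import Vale.Agent.N333C.Alg
import Vale.Agent.N333C.Recode
import Mathlib.Data.ZMod.Basic

/-!
The algorithms on machines with the natural input and output alphabets.
-/

namespace Vale.Agent.N333C

open Vale.Agent.P333 Vale.Agent.Lib.PolyTime

theorem exists_idx (B : Type) [Finite B] : ∃ (o₀ : Option B) (nxt : Option B → Option B)
    (idx : B → ℕ), ∀ b, nxt^[idx b] o₀ = some b := by
  let _ := Fintype.ofFinite B
  let e : Option B ≃ ZMod (Fintype.card B + 1) := Fintype.equivOfCardEq (by simp)
  have h : ∀ k : ℕ, (fun o => e.symm (e o + 1))^[k] (e.symm 0) = e.symm k := fun k => by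
    induction k with
    | zero => simp
    | succ k ih => rw [Function.iterate_succ_apply', ih]; simp
  exact ⟨e.symm 0, fun o => e.symm (e o + 1), fun b => (e (some b)).val, fun b => by simp [h]⟩

theorem exists_bound {B : Type} [Finite B] (f : B → ℕ) : ∃ n, ∀ b, f b ≤ n := by
  obtain ⟨n, hn⟩ := (Set.finite_range f).bddAbove
  exact ⟨n, fun b => hn ⟨b, rfl⟩⟩

theorem dec_un {B : Type} (o₀ : Option B) (nxt : Option B → Option B) (w : List Bool) (i : ℕ) :
    ∀ o, dec o₀ nxt o (List.replicate i true ++ false :: w) =
      (nxt^[i] o).toList ++ dec o₀ nxt o₀ w := by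
  induction i with
  | zero => exact fun _ => rfl
  | succ i ih => exact fun o => ih (nxt o)

theorem polyTime_of {α β α' A B : Type} [Enc α'] [Finite A] [Finite B] {ea : α → List A}
    {eb : β → List B} {f : α → β} {o₀ : Option B} {nxt : Option B → Option B} {idx : B → ℕ}
    (hi : ∀ b, nxt^[idx b] o₀ = some b) (j : α → α') (ca : A → List Bool)
    (h1 : ∀ a, enc (j a) = (ea a).flatMap ca) {h : α' → List ℕ} (hh : PT ∅ h)
    (h2 : ∀ a, h (j a) = (eb (f a)).map idx) : PolyTime ea eb f := by
  obtain ⟨n, hn⟩ := exists_bound idx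
  obtain ⟨C, hC⟩ := exists_bound fun a => (ca a).length
  obtain ⟨g, hg, e⟩ := PT.rawOfList (PT.flatMap
    (f := fun _ (i : ℕ) => List.replicate (min i n) true ++ [false]) hh
    ((PT.replicate (PT.min PT.snd' (PT.const n)) ((PBd.const n).mono fun _ => min_le_right _ _)
      (PT.const true)).append (PT.const [false])))
  obtain ⟨M, hM⟩ := exists_tm2_of_polyTimeFun (fun a => enc (j a)) id (fun a => g (enc (j a))) g
    (polyTimeFun_iff.2 hg) fun _ => rfl
  obtain ⟨-, -, c, -, hc, -⟩ := hg.elim
  refine recode M hM ca o₀ nxt C c hC h1 (fun a => ?_) (fun a => hc _) (eval_mono _)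
  rw [id, e, enc_raw]
  dsimp only
  rw [h2]
  induction eb (f a) with
  | nil => rfl
  | cons b l ih =>
    rw [List.map_cons, List.flatMap_cons, List.append_assoc, List.singleton_append, dec_un, ih,
      min_eq_left (hn b), hi]
    rfl

theorem flatMap_tape {A : Type} (S : List (List A)) (c : Option A → List Bool) :
    (tape S).flatMap c = S.flatMap fun s => s.flatMap (fun a => c (some a)) ++ c none := by
  simp [tape, List.flatMap_assoc, List.flatMap_map]

/-- Every bit is preceded by `true`. -/
def dbl (w : List Bool) : List Bool := w.flatMap fun b => [true, b]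

theorem polyTime_binary {f : List Str → Str} (hf : PT ∅ f) :
    PolyTime (fun S => tape (S.map binary)) binary f := by
  obtain ⟨o₀, nxt, idx, hi⟩ := exists_idx (Option Bool)
  refine polyTime_of hi id (fun o => o.elim [false] fun o' => dbl (o'.elim [false] fun b => [true, b]))
    (fun S => ?_) (h := fun S => (f S).flatMap fun a =>
      (a.bits.map fun b => bif b then idx (some true) else idx (some false)) ++ [idx none])
    (PT.flatMap (f := fun _ (a : ℕ) =>
      (a.bits.map fun b => bif b then idx (some true) else idx (some false)) ++ [idx none]) hf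
      ((PT.map (f := fun _ (b : Bool) => bif b then idx (some true) else idx (some false))
        PT.snd'.natBits (PT.snd'.cond (PT.const _) (PT.const _))).append (PT.const _))) fun S => ?_
  · rw [← codeInstance_eq, flatMap_tape, List.flatMap_map]
    refine List.flatMap_congr fun s _ => congrArg (· ++ [false]) ?_
    simp [binary, flatMap_tape, dbl, codeString, codeList, List.flatMap_assoc, List.flatMap_map]
  · simp only [id, binary, tape, List.map_flatMap, List.flatMap_map, List.map_append, List.map_map]
    refine List.flatMap_congr fun a _ => congrArg (· ++ [idx none]) (List.map_congr_left ?_)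
    rintro (_ | _) - <;> rfl

theorem good_nat : Good algLin algCirc := fun S => by
  obtain ⟨a1, a2, a3⟩ := algLin_ok S
  obtain ⟨b1, b2, b3⟩ := algCirc_ok S
  have := cyc_le_opt S
  have := maxLen_le_opt S
  exact ⟨a1, a2, by omega, b1, b2, fun a ha => (List.mem_append.1 ha).elim (a3 a) (b3 a)⟩

theorem approx_of {ρ : ℝ} (h : 2 ≤ ρ) : Approx ρ := by
  refine ⟨algLin, polyTime_binary pt_algLin, fun S => ⟨(good_nat S).1, ?_⟩⟩
  have h1 : ((algLin S).length : ℝ) ≤ 2 * OPT S := by exact_mod_cast (good_nat S).2.2.1
  exact h1.trans (mul_le_mul_of_nonneg_right h (Nat.cast_nonneg _))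

theorem rho_le : rho ≤ 2 := csInf_le ⟨1, fun _ hx => hx.1⟩ ⟨by norm_num, approx_of le_rfl⟩

section Finite

variable {A : Type} {inv : ℕ → Option A} {idx : A → ℕ} (hi : ∀ b, inv (idx b) = some b)
include hi

theorem filterMap_map (l : List A) : (l.map idx).filterMap inv = l := by
  simp [List.filterMap_map, hi]

theorem map_filterMap {S : List (List A)} {T : Str} (h : ∀ a ∈ T, ∃ s ∈ S.map (List.map idx), a ∈ s) :
    (T.filterMap inv).map idx = T := by
  induction T with
  | nil => rfl
  | cons a T ih =>
    obtain ⟨s, hs, ha⟩ := h a List.mem_cons_self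
    obtain ⟨t, -, rfl⟩ := List.mem_map.1 hs
    obtain ⟨b, -, rfl⟩ := List.mem_map.1 ha
    rw [List.filterMap_cons_some (hi b), List.map_cons,
      ih fun a ha => h a (List.mem_cons_of_mem _ ha)]

theorem good_fin : Good (fun S => (algLin (S.map (List.map idx))).filterMap inv)
    fun S => (algCirc (S.map (List.map idx))).filterMap inv := fun S => by
  obtain ⟨a1, a2, -, b1, b2, c⟩ := good_nat (S.map (List.map idx))
  have h1 : CYC (S.map (List.map idx)) ≤ CYC S := by
    obtain ⟨T, hT, e⟩ := exists_cyc S
    rw [← e, ← List.length_map idx]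
    refine cyc_le fun s hs => ?_
    obtain ⟨t, ht, rfl⟩ := List.mem_map.1 hs
    obtain ⟨k, hk⟩ := hT t ht
    exact ⟨k, by simpa using hk.map idx⟩
  have h2 : maxLen (S.map (List.map idx)) = maxLen S := by simp [maxLen, Function.comp_def]
  have h3 := cyc_le_opt S
  have h4 := maxLen_le_opt S
  have h5 := List.length_filterMap_le inv (algLin (S.map (List.map idx)))
  have h6 := List.length_filterMap_le inv (algCirc (S.map (List.map idx)))
  refine ⟨fun s hs => ?_, by dsimp only; omega, by dsimp only; omega, fun s hs => ?_,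
    by dsimp only; omega, fun a ha => ?_⟩
  · have := (a1 _ (List.mem_map_of_mem hs)).filterMap inv
    rwa [filterMap_map hi] at this
  · obtain ⟨k, hk⟩ := b1 _ (List.mem_map_of_mem hs)
    have := hk.filterMap inv
    rw [filterMap_map hi, List.filterMap_flatten, List.map_replicate] at this
    exact ⟨k, this⟩
  · rw [← List.filterMap_append] at ha
    obtain ⟨i, h7, h8⟩ := List.mem_filterMap.1 ha
    obtain ⟨s, hs, h9⟩ := c i h7
    obtain ⟨t, ht, rfl⟩ := List.mem_map.1 hs
    obtain ⟨b, hb, rfl⟩ := List.mem_map.1 h9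
    rw [hi] at h8
    exact ⟨t, ht, Option.some.inj h8 ▸ hb⟩

end Finite

theorem exists_fin (A : Type) [Finite A] : ∃ f g : List (List A) → List A,
    PolyTime tape id f ∧ PolyTime tape id g ∧ Good f g := by
  obtain ⟨o₀, nxt, idx, hi⟩ := exists_idx A
  have key : ∀ {f : List Str → Str}, PT ∅ f → (∀ S, ∀ a ∈ f S, ∃ s ∈ S, a ∈ s) →
      PolyTime tape id fun S : List (List A) =>
        (f (S.map (List.map idx))).filterMap fun i => nxt^[i] o₀ := fun hf h =>
    polyTime_of hi (List.map (List.map idx))
      (fun o => o.elim [false] fun a => dbl (dbl (idx a).bits ++ [false])) (fun S => by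
        rw [← codeInstance_eq, flatMap_tape]
        simp [codeInstance, codeString, codeList, dbl, List.flatMap_assoc, List.flatMap_map]) hf
      fun S => (map_filterMap (inv := fun i => nxt^[i] o₀) hi (h _)).symm
  exact ⟨_, _, key pt_algLin fun S => (algLin_ok S).2.2, key pt_algCirc fun S => (algCirc_ok S).2.2,
    good_fin (inv := fun i => nxt^[i] o₀) hi⟩

end Vale.Agent.N333C
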